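import Mathlib

/-!
Borsuk's conjecture for finite sets of at most `d + 3` points of `ℝ^d`.
-/

namespace Vale.Agent.Results.P052.FewPoints

open Finset
open scoped RealInnerProductSpace

/-- A finite set of points of a finite-dimensional real inner product space whose pairwise
distances are all equal to `D > 0` has at most `dim + 1` points. -/
theorem card_le_of_equidistant {E : Type} [NormedAddCommGroup E] [InnerProductSpace ℝ E]
    [FiniteDimensional ℝ E] (S : Finset E) (D : ℝ) (hD : 0 < D)
    (h : ∀ x ∈ S, ∀ y ∈ S, x ≠ y → dist x y = D) :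
    S.card ≤ Module.finrank ℝ E + 1 := by
  classical
  rcases S.eq_empty_or_nonempty with rfl | ⟨p, hp⟩
  · simp
  have hin : ∀ x ∈ S.erase p, ∀ y ∈ S.erase p,
      ⟪x - p, y - p⟫ = if x = y then D ^ 2 else D ^ 2 / 2 := by
    intro x hx y hy
    have hxp : dist x p = D := h x (mem_of_mem_erase hx) p hp (ne_of_mem_erase hx)
    have hyp : dist y p = D := h y (mem_of_mem_erase hy) p hp (ne_of_mem_erase hy)
    rw [dist_eq_norm] at hxp hyp
    by_cases hxy : x = y
    · subst hxy
      rw [if_pos rfl, real_inner_self_eq_norm_sq, hxp]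
    · rw [if_neg hxy]
      have hxy' : dist x y = D := h x (mem_of_mem_erase hx) y (mem_of_mem_erase hy) hxy
      rw [dist_eq_norm] at hxy'
      have e := norm_sub_sq_real (x - p) (y - p)
      have e' : x - p - (y - p) = x - y := by abel
      rw [e', hxy', hxp, hyp] at e
      linarith
  have hli : LinearIndependent ℝ (fun x : {x // x ∈ S.erase p} => (x : E) - p) := by
    rw [Fintype.linearIndependent_iff]
    intro g hg j
    have key : ∀ j : {x // x ∈ S.erase p}, D ^ 2 / 2 * (g j + ∑ i, g i) = 0 := by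
      intro j
      have h1 : ⟪∑ i : {x // x ∈ S.erase p}, g i • ((i : E) - p), (j : E) - p⟫ = 0 := by
        rw [hg, inner_zero_left]
      rw [sum_inner] at h1
      have h2 : ∀ i : {x // x ∈ S.erase p}, ⟪g i • ((i : E) - p), (j : E) - p⟫
          = D ^ 2 / 2 * g i + (if i = j then D ^ 2 / 2 * g i else 0) := by
        intro i
        rw [real_inner_smul_left, hin i i.2 j j.2]
        by_cases hij : i = j
        · have : (i : E) = (j : E) := congrArg Subtype.val hij
          rw [if_pos this, if_pos hij]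
          ring
        · have : (i : E) ≠ (j : E) := fun h => hij (Subtype.ext h)
          rw [if_neg this, if_neg hij]
          ring
      rw [Finset.sum_congr rfl (fun i _ => h2 i), Finset.sum_add_distrib, ← Finset.mul_sum,
        Finset.sum_ite_eq' Finset.univ j] at h1
      simp only [Finset.mem_univ, if_true] at h1
      linarith
    have hD2 : D ^ 2 / 2 ≠ 0 := by positivity
    have key' : ∀ j : {x // x ∈ S.erase p}, g j = -∑ i, g i := by
      intro j
      have := (mul_eq_zero.mp (key j)).resolve_left hD2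
      linarith
    have hs : ∑ i, g i = 0 := by
      have h3 : ∑ i, g i = ∑ _i : {x // x ∈ S.erase p}, (-∑ i, g i) :=
        Finset.sum_congr rfl (fun i _ => key' i)
      rw [Finset.sum_const, Finset.card_univ, nsmul_eq_mul] at h3
      have hc : (0 : ℝ) ≤ (Fintype.card {x // x ∈ S.erase p} : ℝ) := Nat.cast_nonneg _
      nlinarith
    rw [key' j, hs, neg_zero]
  have hcard := hli.fintype_card_le_finrank
  rw [Fintype.card_coe, Finset.card_erase_of_mem hp] at hcard
  omega

/-- A purely combinatorial selection step. -/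
theorem exists_merge_aux {α : Type} (N : α → α → Prop) (x y v w : α) (hxy : x ≠ y)
    (Nxy : N x y) (hvx : v ≠ x) (hvy : v ≠ y) (Nyv : N y v) (hwx : w ≠ x) (hwy : w ≠ y)
    (Nxw : N x w) :
    ∃ a b c e, b ≠ e ∧ b ≠ a ∧ b ≠ c ∧ e ≠ a ∧ e ≠ c ∧ N a b ∧ N c e ∧ (c = a → N b e) := by
  by_cases hwv : w = v
  · subst hwv
    exact ⟨x, y, x, w, fun h => hwy h.symm, fun h => hxy h.symm, fun h => hxy h.symm, hwx, hwx,
      Nxy, Nxw, fun _ => Nyv⟩
  · exact ⟨y, v, x, w, fun h => hwv h.symm, hvy, hvx, hwy, hwx, Nyv, Nxw,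
      fun h => absurd h hxy⟩

theorem exists_merge {α : Type} (N : α → α → Prop) (hN : ∀ a b, N a b → N b a)
    (x y u v u' v' : α) (hxy : x ≠ y) (Nxy : N x y)
    (huv : u ≠ v) (Nuv : N u v) (hux : u ≠ x) (hvx : v ≠ x)
    (hu'v' : u' ≠ v') (Nu'v' : N u' v') (hu'y : u' ≠ y) (hv'y : v' ≠ y) :
    ∃ a b c e, b ≠ e ∧ b ≠ a ∧ b ≠ c ∧ e ≠ a ∧ e ≠ c ∧ N a b ∧ N c e ∧ (c = a → N b e) := by
  by_cases h1 : u ≠ y ∧ v ≠ y
  · exact ⟨x, y, u, v, fun h => h1.2 h.symm, fun h => hxy h.symm, fun h => h1.1 h.symm, hvx,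
      fun h => huv h.symm, Nxy, Nuv, fun h => absurd h hux⟩
  by_cases h2 : u' ≠ x ∧ v' ≠ x
  · exact ⟨x, y, u', v', fun h => hv'y h.symm, fun h => hxy h.symm, fun h => hu'y h.symm, h2.2,
      fun h => hu'v' h.symm, Nxy, Nu'v', fun h => absurd h h2.1⟩
  -- a pair `{y, v₁}` and a pair `{x, w}`
  have hv1 : ∃ v₁, v₁ ≠ x ∧ v₁ ≠ y ∧ N y v₁ := by
    by_cases hu : u = y
    · subst hu
      exact ⟨v, hvx, fun h => huv h.symm, Nuv⟩
    · have hv : v = y := by
        by_contra hv
        exact h1 ⟨hu, hv⟩
      subst hv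
      exact ⟨u, hux, huv, hN _ _ Nuv⟩
  have hw : ∃ w, w ≠ x ∧ w ≠ y ∧ N x w := by
    by_cases hu : u' = x
    · subst hu
      exact ⟨v', fun h => hu'v' h.symm, hv'y, Nu'v'⟩
    · have hv : v' = x := by
        by_contra hv
        exact h2 ⟨hu, hv⟩
      subst hv
      exact ⟨u', hu'v', hu'y, hN _ _ Nu'v'⟩
  obtain ⟨v₁, hv1x, hv1y, Nyv1⟩ := hv1
  obtain ⟨w, hwx, hwy, Nxw⟩ := hw
  exact exists_merge_aux N x y v₁ w hxy Nxy hv1x hv1y Nyv1 hwx hwy Nxw

/-- From a map `g` with few values on `Y` whose fibres contain no forbidden pair, a colouring. -/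
theorem colouring_of_map {E : Type} [DecidableEq E] (Y : Finset E) (N : E → E → Prop) (m : ℕ)
    (hm : 0 < m) (g : E → E) (hcard : (Y.image g).card ≤ m)
    (hfib : ∀ y₁ ∈ Y, ∀ y₂ ∈ Y, y₁ ≠ y₂ → g y₁ = g y₂ → N y₁ y₂) :
    ∃ c : E → Fin m, ∀ y₁ ∈ Y, ∀ y₂ ∈ Y, y₁ ≠ y₂ → c y₁ = c y₂ → N y₁ y₂ := by
  classical
  let e := (Y.image g).equivFin
  refine ⟨fun y => if hy : g y ∈ Y.image g then Fin.castLE hcard (e ⟨g y, hy⟩) else ⟨0, hm⟩, ?_⟩
  intro y₁ h₁ y₂ h₂ hne hc
  have m1 : g y₁ ∈ Y.image g := Finset.mem_image_of_mem g h₁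
  have m2 : g y₂ ∈ Y.image g := Finset.mem_image_of_mem g h₂
  simp only [dif_pos m1, dif_pos m2] at hc
  have := e.injective (Fin.castLE_injective hcard hc)
  exact hfib y₁ h₁ y₂ h₂ hne (congrArg Subtype.val this)

/-- The combinatorial core: a finite set `Y` with at most `d + 3` points in which every subset
with at least `d + 2` points contains a pair related by the symmetric relation `N` can be coloured
with `d + 1` colours so that any two distinct points of the same colour are related by `N`. -/
theorem colouring_core {E : Type} [DecidableEq E] (d : ℕ) (Y : Finset E) (hY : Y.card ≤ d + 3)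
    (N : E → E → Prop) (hN : ∀ a b, N a b → N b a)
    (hQ : ∀ S : Finset E, S ⊆ Y → d + 2 ≤ S.card → ∃ x ∈ S, ∃ y ∈ S, x ≠ y ∧ N x y) :
    ∃ c : E → Fin (d + 1), ∀ y₁ ∈ Y, ∀ y₂ ∈ Y, y₁ ≠ y₂ → c y₁ = c y₂ → N y₁ y₂ := by
  rcases Nat.lt_or_ge Y.card (d + 2) with h1 | h1
  · refine colouring_of_map Y N (d + 1) (Nat.succ_pos d) id ?_ ?_
    · simp only [Finset.image_id]
      omega
    · intro y₁ _ y₂ _ hne h
      exact absurd h hne
  rcases Nat.lt_or_ge Y.card (d + 3) with h2 | h2
  · -- exactly `d + 2` points: merge one pair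
    obtain ⟨x, hx, y, hy, hxy, Nxy⟩ := hQ Y (Finset.Subset.refl _) h1
    refine colouring_of_map Y N (d + 1) (Nat.succ_pos d) (Function.update id y x) ?_ ?_
    · have hsub : Y.image (Function.update id y x) ⊆ Y.erase y := by
        intro z hz
        obtain ⟨t, ht, rfl⟩ := Finset.mem_image.mp hz
        rw [Function.update_apply]
        by_cases hty : t = y
        · rw [if_pos hty]
          exact Finset.mem_erase.mpr ⟨hxy, hx⟩
        · rw [if_neg hty]
          exact Finset.mem_erase.mpr ⟨hty, ht⟩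
      have := Finset.card_le_card hsub
      rw [Finset.card_erase_of_mem hy] at this
      omega
    · intro y₁ _ y₂ _ hne h
      rw [Function.update_apply, Function.update_apply] at h
      by_cases e1 : y₁ = y <;> by_cases e2 : y₂ = y
      · exact absurd (e1.trans e2.symm) hne
      · rw [if_pos e1, if_neg e2] at h
        simp only [id] at h
        rw [e1, ← h]
        exact hN _ _ Nxy
      · rw [if_neg e1, if_pos e2] at h
        simp only [id] at h
        rw [e2, h]
        exact Nxy
      · rw [if_neg e1, if_neg e2] at h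
        exact absurd h hne
  · -- exactly `d + 3` points: merge two disjoint pairs or one triple
    have hcard : Y.card = d + 3 := le_antisymm hY h2
    obtain ⟨x, hx, y, hy, hxy, Nxy⟩ := hQ Y (Finset.Subset.refl _) (by omega)
    obtain ⟨u, hu, v, hv, huv, Nuv⟩ := hQ (Y.erase x) (Finset.erase_subset _ _)
      (by rw [Finset.card_erase_of_mem hx]; omega)
    obtain ⟨u', hu', v', hv', hu'v', Nu'v'⟩ := hQ (Y.erase y) (Finset.erase_subset _ _)
      (by rw [Finset.card_erase_of_mem hy]; omega)
    let N' : E → E → Prop := fun a b => a ∈ Y ∧ b ∈ Y ∧ N a b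
    have hN' : ∀ a b, N' a b → N' b a := fun a b h => ⟨h.2.1, h.1, hN _ _ h.2.2⟩
    obtain ⟨a, b, c, e, hbe, hba, hbc, hea, hec, Nab, Nce, Nbe⟩ :=
      exists_merge N' hN' x y u v u' v' hxy ⟨hx, hy, Nxy⟩ huv
        ⟨Finset.mem_of_mem_erase hu, Finset.mem_of_mem_erase hv, Nuv⟩
        (Finset.ne_of_mem_erase hu) (Finset.ne_of_mem_erase hv) hu'v'
        ⟨Finset.mem_of_mem_erase hu', Finset.mem_of_mem_erase hv', Nu'v'⟩
        (Finset.ne_of_mem_erase hu') (Finset.ne_of_mem_erase hv')
    have hgval : ∀ t, Function.update (Function.update id b a) e c t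
        = if t = e then c else if t = b then a else t := by
      intro t
      rw [Function.update_apply, Function.update_apply]
      rfl
    refine colouring_of_map Y N (d + 1) (Nat.succ_pos d)
      (Function.update (Function.update id b a) e c) ?_ ?_
    · have hsub : Y.image (Function.update (Function.update id b a) e c)
          ⊆ (Y.erase b).erase e := by
        intro z hz
        obtain ⟨t, ht, rfl⟩ := Finset.mem_image.mp hz
        rw [hgval]
        by_cases hte : t = e
        · rw [if_pos hte]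
          exact Finset.mem_erase.mpr ⟨fun h => hec h.symm,
            Finset.mem_erase.mpr ⟨fun h => hbc h.symm, Nce.1⟩⟩
        · rw [if_neg hte]
          by_cases htb : t = b
          · rw [if_pos htb]
            exact Finset.mem_erase.mpr ⟨fun h => hea h.symm,
              Finset.mem_erase.mpr ⟨fun h => hba h.symm, Nab.1⟩⟩
          · rw [if_neg htb]
            exact Finset.mem_erase.mpr ⟨hte, Finset.mem_erase.mpr ⟨htb, ht⟩⟩
      have := Finset.card_le_card hsub
      have hbY : b ∈ Y := Nab.2.1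
      have heY : e ∈ Y.erase b := Finset.mem_erase.mpr ⟨fun h => hbe h.symm, Nce.2.1⟩
      rw [Finset.card_erase_of_mem heY, Finset.card_erase_of_mem hbY] at this
      omega
    · intro y₁ _ y₂ _ hne h
      rw [hgval, hgval] at h
      by_cases e1 : y₁ = e
      · rw [if_pos e1] at h
        have e2 : y₂ ≠ e := fun h' => hne (e1.trans h'.symm)
        rw [if_neg e2] at h
        by_cases b2 : y₂ = b
        · rw [if_pos b2] at h
          rw [e1, b2]
          exact hN _ _ (Nbe h).2.2
        · rw [if_neg b2] at h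
          rw [e1, ← h]
          exact hN _ _ Nce.2.2
      · rw [if_neg e1] at h
        by_cases b1 : y₁ = b
        · rw [if_pos b1] at h
          by_cases e2 : y₂ = e
          · rw [if_pos e2] at h
            rw [b1, e2]
            exact (Nbe h.symm).2.2
          · rw [if_neg e2] at h
            have b2 : y₂ ≠ b := fun h' => hne (b1.trans h'.symm)
            rw [if_neg b2] at h
            rw [b1, ← h]
            exact hN _ _ Nab.2.2
        · rw [if_neg b1] at h
          by_cases e2 : y₂ = e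
          · rw [if_pos e2] at h
            rw [e2, h]
            exact Nce.2.2
          · rw [if_neg e2] at h
            by_cases b2 : y₂ = b
            · rw [if_pos b2] at h
              rw [b2, h]
              exact Nab.2.2
            · rw [if_neg b2] at h
              exact absurd h hne

/-- Borsuk's conjecture for finite sets with at most `d + 3` points: every set of at most `d + 3`
points of `ℝ^d` of positive diameter is a union of `d + 1` subsets of strictly smaller
diameter. -/
theorem result (d : ℕ) (Y : Finset (EuclideanSpace ℝ (Fin d))) (hY : Y.card ≤ d + 3)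
    (hpos : 0 < Metric.diam (Y : Set (EuclideanSpace ℝ (Fin d)))) :
    ∃ c : EuclideanSpace ℝ (Fin d) → Fin (d + 1),
      ∀ i, Metric.diam {y | y ∈ Y ∧ c y = i}
        < Metric.diam (Y : Set (EuclideanSpace ℝ (Fin d))) := by
  classical
  have hle : ∀ x ∈ Y, ∀ y ∈ Y, dist x y ≤ Metric.diam (Y : Set (EuclideanSpace ℝ (Fin d))) :=
    fun x hx y hy => Metric.dist_le_diam_of_mem Y.finite_toSet.isBounded hx hy
  have hQ : ∀ S : Finset (EuclideanSpace ℝ (Fin d)), S ⊆ Y → d + 2 ≤ S.card →
      ∃ x ∈ S, ∃ y ∈ S, x ≠ y ∧ dist x y < Metric.diam (Y : Set (EuclideanSpace ℝ (Fin d))) := by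
    intro S hS hcard
    by_contra hcon
    push Not at hcon
    have := card_le_of_equidistant S _ hpos (fun x hx y hy hxy =>
      le_antisymm (hle x (hS hx) y (hS hy)) (hcon x hx y hy hxy))
    rw [finrank_euclideanSpace_fin] at this
    omega
  obtain ⟨c, hc⟩ := colouring_core d Y hY
    (fun x y => dist x y < Metric.diam (Y : Set (EuclideanSpace ℝ (Fin d))))
    (fun a b h => by rwa [dist_comm] at h) hQ
  refine ⟨c, fun i => ?_⟩
  have hP : {y | y ∈ Y ∧ c y = i}
      = ((Y.filter (fun y => c y = i) : Finset (EuclideanSpace ℝ (Fin d))) : Set _) := by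
    ext y
    simp
  rw [hP]
  rcases (Y.filter (fun y => c y = i)).eq_empty_or_nonempty with he | hne
  · rw [he]
    simpa using hpos
  · obtain ⟨⟨x0, y0⟩, hmem, hmax⟩ := Finset.exists_max_image
      ((Y.filter (fun y => c y = i)) ×ˢ (Y.filter (fun y => c y = i)))
      (fun p => dist p.1 p.2) (hne.product hne)
    rw [Finset.mem_product, Finset.mem_filter, Finset.mem_filter] at hmem
    have hM : dist x0 y0 < Metric.diam (Y : Set (EuclideanSpace ℝ (Fin d))) := by
      by_cases hxy : x0 = y0
      · rw [hxy, dist_self]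
        exact hpos
      · exact hc x0 hmem.1.1 y0 hmem.2.1 hxy (hmem.1.2.trans hmem.2.2.symm)
    refine lt_of_le_of_lt (Metric.diam_le_of_forall_dist_le dist_nonneg ?_) hM
    intro x hx y hy
    exact hmax (x, y) (Finset.mem_product.mpr ⟨hx, hy⟩)

end Vale.Agent.Results.P052.FewPoints
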