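import Mathlib
import Vale.Agent.Results.P052.FewPoints

/-!
Borsuk's conjecture for finite sets of at most `d + 4` points of `ℝ^d`.
-/

namespace Vale.Agent.Results.P052.DPlusFour

open Finset
open scoped RealInnerProductSpace

section Geometry

variable {E : Type} [NormedAddCommGroup E] [InnerProductSpace ℝ E]

/-- If `∑ f e • e = 0` and `∑ f e = 0` over a finite set `t`, then `∑ f e * dist k e ^ 2` does not
depend on the point `k`. -/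
theorem sum_mul_dist_sq (t : Finset E) (f : E → ℝ) (h0 : ∑ e ∈ t, f e • e = 0)
    (h1 : ∑ e ∈ t, f e = 0) (k : E) :
    ∑ e ∈ t, f e * dist k e ^ 2 = ∑ e ∈ t, f e * ‖e‖ ^ 2 := by
  have h2 : ∑ e ∈ t, f e * dist k e ^ 2
      = ‖k‖ ^ 2 * ∑ e ∈ t, f e - 2 * ⟪k, ∑ e ∈ t, f e • e⟫ + ∑ e ∈ t, f e * ‖e‖ ^ 2 := by
    rw [inner_sum, Finset.mul_sum, Finset.mul_sum, ← Finset.sum_sub_distrib,
      ← Finset.sum_add_distrib]
    apply Finset.sum_congr rfl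
    intro e _
    rw [dist_eq_norm, norm_sub_sq_real, real_inner_smul_right]
    ring
  rw [h2, h0, h1, inner_zero_right]
  ring

/-- In a finite-dimensional real inner product space of dimension at most `|P| + 1`, let `P` be a
set of points with all mutual distances `D > 0`, and let `w₁, w₂, w₃` be at distance `D` from all
points of `P`, with `dist w₁ w₂ = dist w₂ w₃ = D` and `dist w₁ w₃ ≤ D`.  Then `w₁ = w₃`. -/
theorem no_path [FiniteDimensional ℝ E] (P : Finset E) (D : ℝ) (hD : 0 < D) (w1 w2 w3 : E)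
    (hdim : Module.finrank ℝ E ≤ P.card + 1)
    (hP : ∀ p ∈ P, ∀ q ∈ P, p ≠ q → dist p q = D)
    (h1 : ∀ p ∈ P, dist p w1 = D) (h2 : ∀ p ∈ P, dist p w2 = D) (h3 : ∀ p ∈ P, dist p w3 = D)
    (h12 : dist w1 w2 = D) (h23 : dist w2 w3 = D) (h13 : dist w1 w3 ≤ D) : w1 = w3 := by
  classical
  by_contra hne
  have hw12 : w1 ≠ w2 := fun h => by rw [h, dist_self] at h12; linarith
  have hw23 : w2 ≠ w3 := fun h => by rw [h, dist_self] at h23; linarith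
  have hw1P : w1 ∉ P := fun h => by have := h1 w1 h; rw [dist_self] at this; linarith
  have hw2P : w2 ∉ P := fun h => by have := h2 w2 h; rw [dist_self] at this; linarith
  have hw3P : w3 ∉ P := fun h => by have := h3 w3 h; rw [dist_self] at this; linarith
  set t : Finset E := insert w1 (insert w2 (insert w3 P)) with ht
  have hm3 : w3 ∉ P := hw3P
  have hm2 : w2 ∉ insert w3 P := by
    rw [Finset.mem_insert]; push Not; exact ⟨hw23, hw2P⟩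
  have hm1 : w1 ∉ insert w2 (insert w3 P) := by
    rw [Finset.mem_insert, Finset.mem_insert]; push Not; exact ⟨hw12, hne, hw1P⟩
  have hcard : t.card = P.card + 3 := by
    rw [ht, Finset.card_insert_of_notMem hm1, Finset.card_insert_of_notMem hm2,
      Finset.card_insert_of_notMem hm3]
  obtain ⟨f, hf0, hf1, x, hxt, hfx⟩ :=
    Module.exists_nontrivial_relation_sum_zero_of_finrank_succ_lt_card (R := ℝ) (t := t)
      (by rw [hcard]; omega)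
  have key := sum_mul_dist_sq t f hf0 hf1
  have hsplit : ∀ F : E → ℝ, ∑ e ∈ t, F e = F w1 + (F w2 + (F w3 + ∑ p ∈ P, F p)) := by
    intro F
    rw [ht, Finset.sum_insert hm1, Finset.sum_insert hm2, Finset.sum_insert hm3]
  set κ : ℝ := ∑ e ∈ t, f e * ‖e‖ ^ 2 with hκ
  set S : ℝ := ∑ p ∈ P, f p with hS
  set s : ℝ := dist w1 w3 ^ 2 with hs
  have hs0 : 0 ≤ s := sq_nonneg _
  have hsD : s ≤ D ^ 2 := by
    rw [hs]; exact pow_le_pow_left₀ dist_nonneg h13 2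
  -- total
  have htot : f w1 + (f w2 + (f w3 + S)) = 0 := by rw [← hsplit f]; exact hf1
  -- rows
  have hPsum : ∀ k : E, (∀ p ∈ P, dist p k = D) → ∑ p ∈ P, f p * dist k p ^ 2 = S * D ^ 2 := by
    intro k hk
    rw [hS, Finset.sum_mul]
    apply Finset.sum_congr rfl
    intro p hp
    rw [dist_comm, hk p hp]
  have row1 : f w2 * D ^ 2 + f w3 * s + S * D ^ 2 = κ := by
    have h := key w1
    rw [hsplit (fun e => f e * dist w1 e ^ 2), hPsum w1 h1, dist_self, h12] at h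
    rw [← h]; ring
  have row2 : f w1 * D ^ 2 + f w3 * D ^ 2 + S * D ^ 2 = κ := by
    have h := key w2
    rw [hsplit (fun e => f e * dist w2 e ^ 2), hPsum w2 h2, dist_self, dist_comm w2 w1, h12,
      h23] at h
    rw [← h]; ring
  have row3 : f w1 * s + f w2 * D ^ 2 + S * D ^ 2 = κ := by
    have h := key w3
    rw [hsplit (fun e => f e * dist w3 e ^ 2), hPsum w3 h3, dist_self, dist_comm w3 w1,
      dist_comm w3 w2, h23] at h
    rw [← h, hs]; ring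
  have rowp : ∀ p ∈ P, D ^ 2 * f p = -κ := by
    intro p hp
    have h := key p
    have hPp : ∑ q ∈ P, f q * dist p q ^ 2 = S * D ^ 2 - f p * D ^ 2 := by
      have e1 : ∀ q ∈ P, f q * dist p q ^ 2 = f q * D ^ 2 - (if q = p then f p * D ^ 2 else 0) := by
        intro q hq
        by_cases hqp : q = p
        · rw [if_pos hqp, hqp, dist_self]; ring
        · rw [if_neg hqp, hP p hp q hq (Ne.symm hqp)]; ring
      rw [Finset.sum_congr rfl e1, Finset.sum_sub_distrib, Finset.sum_ite_eq' P p, if_pos hp,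
        hS, Finset.sum_mul]
    rw [hsplit (fun e => f e * dist p e ^ 2), hPp, h1 p hp, h2 p hp, h3 p hp] at h
    linear_combination (D ^ 2) * htot - h
  -- sum of the rows over `P`
  have hSκ : D ^ 2 * S = -(P.card : ℝ) * κ := by
    rw [hS, Finset.mul_sum, Finset.sum_congr rfl rowp, Finset.sum_const, nsmul_eq_mul]
    ring
  have hD2 : 0 < D ^ 2 := by positivity
  have hm : (0 : ℝ) ≤ (P.card : ℝ) := Nat.cast_nonneg _
  -- `κ = 0`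
  have hb2 : D ^ 2 * f w2 = -κ := by linear_combination (D ^ 2) * htot - row2
  have hb3 : f w3 * s = ((P.card : ℝ) + 2) * κ := by linear_combination row1 - hb2 - hSκ
  have hb1 : f w1 * s = ((P.card : ℝ) + 2) * κ := by linear_combination row3 - hb2 - hSκ
  have hb13 : D ^ 2 * (f w1 + f w3) = ((P.card : ℝ) + 1) * κ := by
    linear_combination (D ^ 2) * htot - hb2 - hSκ
  have hκ0 : κ = 0 := by
    have e1 : κ * (s * ((P.card : ℝ) + 1) - 2 * ((P.card : ℝ) + 2) * D ^ 2) = 0 := by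
      have : s * (D ^ 2 * (f w1 + f w3)) = D ^ 2 * (f w1 * s + f w3 * s) := by ring
      rw [hb13, hb1, hb3] at this
      linear_combination this
    have e2 : s * ((P.card : ℝ) + 1) - 2 * ((P.card : ℝ) + 2) * D ^ 2 < 0 := by
      have e3 : s * ((P.card : ℝ) + 1) ≤ D ^ 2 * ((P.card : ℝ) + 1) :=
        mul_le_mul_of_nonneg_right hsD (by linarith)
      have e4 : 0 < D ^ 2 * ((P.card : ℝ) + 3) := by positivity
      linarith
    rcases mul_eq_zero.mp e1 with h | h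
    · exact h
    · linarith
  -- all coefficients vanish unless `s = 0`
  have hfp : ∀ p ∈ P, f p = 0 := by
    intro p hp
    have := rowp p hp
    rw [hκ0, neg_zero] at this
    exact (mul_eq_zero.mp this).resolve_left (ne_of_gt hD2)
  have hf2 : f w2 = 0 := by
    rw [hκ0, neg_zero] at hb2
    exact (mul_eq_zero.mp hb2).resolve_left (ne_of_gt hD2)
  have hs_pos : 0 < s := by
    rw [hs]
    exact pow_pos (dist_pos.mpr hne) 2
  have hf1' : f w1 = 0 := by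
    rw [hκ0, mul_zero] at hb1
    exact (mul_eq_zero.mp hb1).resolve_right (ne_of_gt hs_pos)
  have hf3 : f w3 = 0 := by
    rw [hκ0, mul_zero] at hb3
    exact (mul_eq_zero.mp hb3).resolve_right (ne_of_gt hs_pos)
  rw [ht, Finset.mem_insert, Finset.mem_insert, Finset.mem_insert] at hxt
  rcases hxt with rfl | rfl | rfl | hxP
  · exact hfx hf1'
  · exact hfx hf2
  · exact hfx hf3
  · exact hfx (hfp x hxP)

end Geometry

section Combinatorics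

variable {E : Type}

/-- Three merges: `p₁, p₂, p₃` are distinct points of `Y`, and each `pᵢ` is merged into a point
`qᵢ` of `Y` that is none of the `p`'s; merged points are related by `N`. -/
def Merge3 (Y : Finset E) (N : E → E → Prop) : Prop :=
  ∃ p1 p2 p3 q1 q2 q3 : E, p1 ∈ Y ∧ p2 ∈ Y ∧ p3 ∈ Y ∧ q1 ∈ Y ∧ q2 ∈ Y ∧ q3 ∈ Y ∧
    p1 ≠ p2 ∧ p1 ≠ p3 ∧ p2 ≠ p3 ∧ q1 ≠ p1 ∧ q1 ≠ p2 ∧ q1 ≠ p3 ∧ q2 ≠ p1 ∧ q2 ≠ p2 ∧ q2 ≠ p3 ∧
    q3 ≠ p1 ∧ q3 ≠ p2 ∧ q3 ≠ p3 ∧ N p1 q1 ∧ N p2 q2 ∧ N p3 q3 ∧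
    (q1 = q2 → N p1 p2) ∧ (q1 = q3 → N p1 p3) ∧ (q2 = q3 → N p2 p3)

/-- The exceptional configuration: outside five points `w₁, w₂, w₃, u₁, u₂` no point is related to
anything, and `w₁, w₂` as well as `w₂, w₃` are unrelated. -/
def BadC5 (Y : Finset E) (N : E → E → Prop) : Prop :=
  ∃ w1 w2 w3 u1 u2 : E, w1 ∈ Y ∧ w2 ∈ Y ∧ w3 ∈ Y ∧ u1 ∈ Y ∧ u2 ∈ Y ∧
    w1 ≠ w2 ∧ w1 ≠ w3 ∧ w2 ≠ w3 ∧ u1 ≠ u2 ∧ u1 ≠ w1 ∧ u1 ≠ w2 ∧ u1 ≠ w3 ∧
    u2 ≠ w1 ∧ u2 ≠ w2 ∧ u2 ≠ w3 ∧ ¬ N w1 w2 ∧ ¬ N w2 w3 ∧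
    ∀ z ∈ Y, z ≠ w1 → z ≠ w2 → z ≠ w3 → z ≠ u1 → z ≠ u2 → ∀ y ∈ Y, y ≠ z → ¬ N z y

/-- `m` has a neighbour outside the four marked points. -/
def HasR (Y : Finset E) (N : E → E → Prop) (inM : E → Prop) (m : E) : Prop :=
  ∃ r ∈ Y, ¬ inM r ∧ N m r

theorem L1 (Y : Finset E) (N : E → E → Prop) (hN : ∀ a b, N a b → N b a) (inM : E → Prop)
    (x1 y1 x2 y2 : E) (hM : ∀ z, inM z ↔ z = x1 ∨ z = y1 ∨ z = x2 ∨ z = y2)
    (hmem : x1 ∈ Y ∧ y1 ∈ Y ∧ x2 ∈ Y ∧ y2 ∈ Y)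
    (hne : x1 ≠ y1 ∧ x1 ≠ x2 ∧ x1 ≠ y2 ∧ y1 ≠ x2 ∧ y1 ≠ y2 ∧ x2 ≠ y2)
    (he : N x1 y1 ∧ N x2 y2)
    (h1 : HasR Y N inM x1) (h2 : HasR Y N inM y1) : Merge3 Y N := by
  obtain ⟨r, hr, hrM, hxr⟩ := h1
  obtain ⟨r', hr', hr'M, hyr'⟩ := h2
  rw [hM] at hrM hr'M
  by_cases hrr : r = r'
  · exact ⟨y1, r, y2, x1, x1, x2, by grind⟩
  · exact ⟨r, r', y2, x1, y1, x2, by grind⟩

theorem L2 (Y : Finset E) (N : E → E → Prop) (hN : ∀ a b, N a b → N b a) (inM : E → Prop)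
    (hF : ∀ a ∈ Y, ∀ b ∈ Y, ∃ x ∈ Y, ∃ y ∈ Y, x ≠ y ∧ x ≠ a ∧ x ≠ b ∧ y ≠ a ∧ y ≠ b ∧ N x y)
    (x1 y1 x2 y2 : E) (hM : ∀ z, inM z ↔ z = x1 ∨ z = y1 ∨ z = x2 ∨ z = y2)
    (hmem : x1 ∈ Y ∧ y1 ∈ Y ∧ x2 ∈ Y ∧ y2 ∈ Y)
    (hne : x1 ≠ y1 ∧ x1 ≠ x2 ∧ x1 ≠ y2 ∧ y1 ≠ x2 ∧ y1 ≠ y2 ∧ x2 ≠ y2)
    (he : N x1 y1 ∧ N x2 y2)
    (hcov : ∀ x ∈ Y, ∀ y ∈ Y, x ≠ y → N x y → inM x ∨ inM y)
    (h1 : HasR Y N inM x1) (h4 : HasR Y N inM y2) : Merge3 Y N ∨ BadC5 Y N := by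
  by_cases h2 : HasR Y N inM y1
  · exact Or.inl (L1 Y N hN inM x1 y1 x2 y2 hM hmem hne he h1 h2)
  by_cases h3 : HasR Y N inM x2
  · exact Or.inl (L1 Y N hN inM x2 y2 x1 y1 (fun z => by rw [hM z]; tauto) (by grind) (by grind)
      (by grind) h3 h4)
  have h2' : ∀ r ∈ Y, ¬ inM r → ¬ N y1 r := fun r hr hrM hn => h2 ⟨r, hr, hrM, hn⟩
  have h3' : ∀ r ∈ Y, ¬ inM r → ¬ N x2 r := fun r hr hrM hn => h3 ⟨r, hr, hrM, hn⟩
  obtain ⟨r, hr, hrM, hxr⟩ := h1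
  obtain ⟨r', hr', hr'M, hyr'⟩ := h4
  -- the edge `y1 x2`
  have hyx : N y1 x2 := by
    obtain ⟨u, hu, v, hv, huv, hu1, hu2, hv1, hv2, Nuv⟩ := hF x1 hmem.1 y2 hmem.2.2.2
    have hc := hcov u hu v hv huv Nuv
    have hu' := h2' u hu
    have hv' := h2' v hv
    have hu'' := h3' u hu
    have hv'' := h3' v hv
    have hMu := hM u
    have hMv := hM v
    grind
  have hrM' := hrM
  have hr'M' := hr'M
  rw [hM] at hrM' hr'M'
  by_cases hrr : r = r'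
  · subst hrr
    by_cases c1 : N x1 x2
    · exact Or.inl ⟨y1, x2, r, x1, x1, y2, by grind⟩
    by_cases c2 : N x1 y2
    · exact Or.inl ⟨y2, r, x2, x1, x1, y1, by grind⟩
    by_cases c3 : N y1 y2
    · exact Or.inl ⟨x2, y2, r, y1, y1, x1, by grind⟩
    by_cases hz : ∃ z ∈ Y, z ≠ y1 ∧ z ≠ r ∧ z ≠ x2 ∧ z ≠ x1 ∧ z ≠ y2 ∧ ∃ y ∈ Y, y ≠ z ∧ N z y
    · obtain ⟨z, hzY, hz1, hz2, hz3, hz4, hz5, y, hyY, hyz, Nzy⟩ := hz
      have hzM : ¬ inM z := by rw [hM]; grind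
      have hc := hcov z hzY y hyY (Ne.symm hyz) Nzy
      have hyM : inM y := hc.resolve_left hzM
      rw [hM] at hyM
      have e1 := h2' z hzY hzM
      have e2 := h3' z hzY hzM
      rcases hyM with rfl | rfl | rfl | rfl
      · exact Or.inl ⟨z, r, x2, y, y2, y1, by grind⟩
      · exact absurd (hN _ _ Nzy) e1
      · exact absurd (hN _ _ Nzy) e2
      · exact Or.inl ⟨z, r, x2, y, x1, y1, by grind⟩
    · push Not at hz
      have e1 := h2' r hr hrM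
      have e2 := h3' r hr hrM
      refine Or.inr ⟨y1, r, x2, x1, y2, hmem.2.1, hr, hmem.2.2.1, hmem.1, hmem.2.2.2,
        by grind, by grind, by grind, by grind, by grind, by grind, by grind, by grind, by grind,
        by grind, e1, fun h => e2 (hN _ _ h), ?_⟩
      intro z hzY hz1 hz2 hz3 hz4 hz5 y hyY hyz
      exact hz z hzY hz1 hz2 hz3 hz4 hz5 y hyY hyz
  · exact Or.inl ⟨r, r', x2, x1, y2, y1, by grind⟩

theorem L3 (Y : Finset E) (N : E → E → Prop) (hN : ∀ a b, N a b → N b a) (inM : E → Prop)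
    (hF : ∀ a ∈ Y, ∀ b ∈ Y, ∃ x ∈ Y, ∃ y ∈ Y, x ≠ y ∧ x ≠ a ∧ x ≠ b ∧ y ≠ a ∧ y ≠ b ∧ N x y)
    (x1 y1 x2 y2 : E) (hM : ∀ z, inM z ↔ z = x1 ∨ z = y1 ∨ z = x2 ∨ z = y2)
    (hmem : x1 ∈ Y ∧ y1 ∈ Y ∧ x2 ∈ Y ∧ y2 ∈ Y)
    (hne : x1 ≠ y1 ∧ x1 ≠ x2 ∧ x1 ≠ y2 ∧ y1 ≠ x2 ∧ y1 ≠ y2 ∧ x2 ≠ y2)
    (he : N x1 y1 ∧ N x2 y2)
    (hcov : ∀ x ∈ Y, ∀ y ∈ Y, x ≠ y → N x y → inM x ∨ inM y)
    (h1 : HasR Y N inM x1) (h3 : ¬ HasR Y N inM x2) (h4 : ¬ HasR Y N inM y2) :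
    Merge3 Y N := by
  by_cases h2 : HasR Y N inM y1
  · exact L1 Y N hN inM x1 y1 x2 y2 hM hmem hne he h1 h2
  have h2' : ∀ r ∈ Y, ¬ inM r → ¬ N y1 r := fun r hr hrM hn => h2 ⟨r, hr, hrM, hn⟩
  have h3' : ∀ r ∈ Y, ¬ inM r → ¬ N x2 r := fun r hr hrM hn => h3 ⟨r, hr, hrM, hn⟩
  have h4' : ∀ r ∈ Y, ¬ inM r → ¬ N y2 r := fun r hr hrM hn => h4 ⟨r, hr, hrM, hn⟩
  obtain ⟨r, hr, hrM, hxr⟩ := h1
  have hyy : N y1 y2 := by
    obtain ⟨u, hu, v, hv, huv, hu1, hu2, hv1, hv2, Nuv⟩ := hF x1 hmem.1 x2 hmem.2.2.1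
    have hc := hcov u hu v hv huv Nuv
    have a1 := h2' u hu
    have a2 := h2' v hv
    have a3 := h4' u hu
    have a4 := h4' v hv
    have hMu := hM u
    have hMv := hM v
    grind
  have hyx : N y1 x2 := by
    obtain ⟨u, hu, v, hv, huv, hu1, hu2, hv1, hv2, Nuv⟩ := hF x1 hmem.1 y2 hmem.2.2.2
    have hc := hcov u hu v hv huv Nuv
    have a1 := h2' u hu
    have a2 := h2' v hv
    have a3 := h3' u hu
    have a4 := h3' v hv
    have hMu := hM u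
    have hMv := hM v
    grind
  rw [hM] at hrM
  exact ⟨x2, y2, r, y1, y1, x1, by grind⟩

theorem L4 (Y : Finset E) (N : E → E → Prop) (hN : ∀ a b, N a b → N b a) (inM : E → Prop)
    (hF : ∀ a ∈ Y, ∀ b ∈ Y, ∃ x ∈ Y, ∃ y ∈ Y, x ≠ y ∧ x ≠ a ∧ x ≠ b ∧ y ≠ a ∧ y ≠ b ∧ N x y)
    (x1 y1 x2 y2 : E) (hM : ∀ z, inM z ↔ z = x1 ∨ z = y1 ∨ z = x2 ∨ z = y2)
    (hmem : x1 ∈ Y ∧ y1 ∈ Y ∧ x2 ∈ Y ∧ y2 ∈ Y)
    (hne : x1 ≠ y1 ∧ x1 ≠ x2 ∧ x1 ≠ y2 ∧ y1 ≠ x2 ∧ y1 ≠ y2 ∧ x2 ≠ y2)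
    (he : N x1 y1 ∧ N x2 y2)
    (hcov : ∀ x ∈ Y, ∀ y ∈ Y, x ≠ y → N x y → inM x ∨ inM y)
    (h1 : ¬ HasR Y N inM x1) (h2 : ¬ HasR Y N inM y1) (h3 : ¬ HasR Y N inM x2)
    (h4 : ¬ HasR Y N inM y2) : Merge3 Y N := by
  have h1' : ∀ r ∈ Y, ¬ inM r → ¬ N x1 r := fun r hr hrM hn => h1 ⟨r, hr, hrM, hn⟩
  have h2' : ∀ r ∈ Y, ¬ inM r → ¬ N y1 r := fun r hr hrM hn => h2 ⟨r, hr, hrM, hn⟩
  have h3' : ∀ r ∈ Y, ¬ inM r → ¬ N x2 r := fun r hr hrM hn => h3 ⟨r, hr, hrM, hn⟩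
  have h4' : ∀ r ∈ Y, ¬ inM r → ¬ N y2 r := fun r hr hrM hn => h4 ⟨r, hr, hrM, hn⟩
  -- an edge avoiding two marked points joins the other two
  have key : ∀ a b c e : E, (∀ z, inM z ↔ z = a ∨ z = b ∨ z = c ∨ z = e) → a ∈ Y → b ∈ Y →
      (∀ r ∈ Y, ¬ inM r → ¬ N c r) → (∀ r ∈ Y, ¬ inM r → ¬ N e r) → c ≠ e → N c e := by
    intro a b c e hM' ha hb hc he hce
    obtain ⟨u, hu, v, hv, huv, hu1, hu2, hv1, hv2, Nuv⟩ := hF a ha b hb
    have hcv := hcov u hu v hv huv Nuv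
    have a1 := hc u hu
    have a2 := hc v hv
    have a3 := he u hu
    have a4 := he v hv
    have hMu := hM' u
    have hMv := hM' v
    grind
  have k1 : N y1 y2 := key x1 x2 y1 y2 (fun z => by rw [hM z]; tauto) hmem.1 hmem.2.2.1 h2' h4'
    hne.2.2.2.2.1
  have k2 : N y1 x2 := key x1 y2 y1 x2 (fun z => by rw [hM z]; tauto) hmem.1 hmem.2.2.2 h2' h3'
    hne.2.2.2.1
  have k3 : N x1 y2 := key y1 x2 x1 y2 (fun z => by rw [hM z]; tauto) hmem.2.1 hmem.2.2.1 h1' h4'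
    hne.2.2.1
  have k4 : N x1 x2 := key y1 y2 x1 x2 (fun z => by rw [hM z]; tauto) hmem.2.1 hmem.2.2.2 h1' h3'
    hne.2.1
  exact ⟨y1, x2, y2, x1, x1, x1, by grind⟩

theorem dispatch (Y : Finset E) (N : E → E → Prop) (hN : ∀ a b, N a b → N b a) (inM : E → Prop)
    (hF : ∀ a ∈ Y, ∀ b ∈ Y, ∃ x ∈ Y, ∃ y ∈ Y, x ≠ y ∧ x ≠ a ∧ x ≠ b ∧ y ≠ a ∧ y ≠ b ∧ N x y)
    (x1 y1 x2 y2 : E) (hM : ∀ z, inM z ↔ z = x1 ∨ z = y1 ∨ z = x2 ∨ z = y2)
    (hmem : x1 ∈ Y ∧ y1 ∈ Y ∧ x2 ∈ Y ∧ y2 ∈ Y)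
    (hne : x1 ≠ y1 ∧ x1 ≠ x2 ∧ x1 ≠ y2 ∧ y1 ≠ x2 ∧ y1 ≠ y2 ∧ x2 ≠ y2)
    (he : N x1 y1 ∧ N x2 y2)
    (hcov : ∀ x ∈ Y, ∀ y ∈ Y, x ≠ y → N x y → inM x ∨ inM y) :
    Merge3 Y N ∨ BadC5 Y N := by
  obtain ⟨m1, m2, m3, m4⟩ := hmem
  obtain ⟨n1, n2, n3, n4, n5, n6⟩ := hne
  obtain ⟨e1, e2⟩ := he
  -- relabelled frames
  have hMa : ∀ z, inM z ↔ z = x1 ∨ z = y1 ∨ z = y2 ∨ z = x2 := fun z => by rw [hM z]; tauto
  have hMb : ∀ z, inM z ↔ z = y1 ∨ z = x1 ∨ z = x2 ∨ z = y2 := fun z => by rw [hM z]; tauto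
  have hMc : ∀ z, inM z ↔ z = y1 ∨ z = x1 ∨ z = y2 ∨ z = x2 := fun z => by rw [hM z]; tauto
  have hMd : ∀ z, inM z ↔ z = x2 ∨ z = y2 ∨ z = x1 ∨ z = y1 := fun z => by rw [hM z]; tauto
  have hMe : ∀ z, inM z ↔ z = y2 ∨ z = x2 ∨ z = x1 ∨ z = y1 := fun z => by rw [hM z]; tauto
  have e1' : N y1 x1 := hN _ _ e1
  have e2' : N y2 x2 := hN _ _ e2
  by_cases h1 : HasR Y N inM x1
  · by_cases h2 : HasR Y N inM y1
    · exact Or.inl (L1 Y N hN inM x1 y1 x2 y2 hM ⟨m1, m2, m3, m4⟩ ⟨n1, n2, n3, n4, n5, n6⟩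
        ⟨e1, e2⟩ h1 h2)
    by_cases h4 : HasR Y N inM y2
    · exact L2 Y N hN inM hF x1 y1 x2 y2 hM ⟨m1, m2, m3, m4⟩ ⟨n1, n2, n3, n4, n5, n6⟩
        ⟨e1, e2⟩ hcov h1 h4
    by_cases h3 : HasR Y N inM x2
    · exact L2 Y N hN inM hF x1 y1 y2 x2 hMa ⟨m1, m2, m4, m3⟩
        ⟨n1, n3, n2, n5, n4, Ne.symm n6⟩ ⟨e1, e2'⟩ hcov h1 h3
    · exact Or.inl (L3 Y N hN inM hF x1 y1 x2 y2 hM ⟨m1, m2, m3, m4⟩ ⟨n1, n2, n3, n4, n5, n6⟩
        ⟨e1, e2⟩ hcov h1 h3 h4)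
  · by_cases h2 : HasR Y N inM y1
    · by_cases h4 : HasR Y N inM y2
      · exact L2 Y N hN inM hF y1 x1 x2 y2 hMb ⟨m2, m1, m3, m4⟩
          ⟨Ne.symm n1, n4, n5, n2, n3, n6⟩ ⟨e1', e2⟩ hcov h2 h4
      by_cases h3 : HasR Y N inM x2
      · exact L2 Y N hN inM hF y1 x1 y2 x2 hMc ⟨m2, m1, m4, m3⟩
          ⟨Ne.symm n1, n5, n4, n3, n2, Ne.symm n6⟩ ⟨e1', e2'⟩ hcov h2 h3
      · exact Or.inl (L3 Y N hN inM hF y1 x1 x2 y2 hMb ⟨m2, m1, m3, m4⟩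
          ⟨Ne.symm n1, n4, n5, n2, n3, n6⟩ ⟨e1', e2⟩ hcov h2 h3 h4)
    · by_cases h3 : HasR Y N inM x2
      · by_cases h4 : HasR Y N inM y2
        · exact Or.inl (L1 Y N hN inM x2 y2 x1 y1 hMd ⟨m3, m4, m1, m2⟩
            ⟨n6, Ne.symm n2, Ne.symm n4, Ne.symm n3, Ne.symm n5, n1⟩ ⟨e2, e1⟩ h3 h4)
        · exact Or.inl (L3 Y N hN inM hF x2 y2 x1 y1 hMd ⟨m3, m4, m1, m2⟩
            ⟨n6, Ne.symm n2, Ne.symm n4, Ne.symm n3, Ne.symm n5, n1⟩ ⟨e2, e1⟩ hcov h3 h1 h2)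
      · by_cases h4 : HasR Y N inM y2
        · exact Or.inl (L3 Y N hN inM hF y2 x2 x1 y1 hMe ⟨m4, m3, m1, m2⟩
            ⟨Ne.symm n6, Ne.symm n3, Ne.symm n5, Ne.symm n2, Ne.symm n4, n1⟩ ⟨e2', e1⟩ hcov
            h4 h1 h2)
        · exact Or.inl (L4 Y N hN inM hF x1 y1 x2 y2 hM ⟨m1, m2, m3, m4⟩
            ⟨n1, n2, n3, n4, n5, n6⟩ ⟨e1, e2⟩ hcov h1 h2 h3 h4)

/-- The combinatorial dichotomy: if the deletion of any two points of `Y` leaves a related pair,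
then three merges are possible, or `Y` has the exceptional configuration. -/
theorem merge3_or_badC5 (Y : Finset E) (N : E → E → Prop) (hN : ∀ a b, N a b → N b a)
    (hY : Y.Nonempty)
    (hF : ∀ a ∈ Y, ∀ b ∈ Y, ∃ x ∈ Y, ∃ y ∈ Y, x ≠ y ∧ x ≠ a ∧ x ≠ b ∧ y ≠ a ∧ y ≠ b ∧ N x y) :
    Merge3 Y N ∨ BadC5 Y N := by
  obtain ⟨a0, ha0⟩ := hY
  obtain ⟨x1, hx1, y1, hy1, hxy1, -, -, -, -, N1⟩ := hF a0 ha0 a0 ha0
  obtain ⟨x2, hx2, y2, hy2, hxy2, hx2a, hx2b, hy2a, hy2b, N2⟩ := hF x1 hx1 y1 hy1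
  by_cases hout : ∃ x ∈ Y, ∃ y ∈ Y, x ≠ y ∧ N x y ∧
      ¬ (x = x1 ∨ x = y1 ∨ x = x2 ∨ x = y2) ∧ ¬ (y = x1 ∨ y = y1 ∨ y = x2 ∨ y = y2)
  · obtain ⟨x3, hx3, y3, hy3, hxy3, N3, hx3M, hy3M⟩ := hout
    exact Or.inl ⟨y1, y2, y3, x1, x2, x3, by grind⟩
  · refine dispatch Y N hN (fun z => z = x1 ∨ z = y1 ∨ z = x2 ∨ z = y2) hF x1 y1 x2 y2
      (fun z => Iff.rfl) ⟨hx1, hy1, hx2, hy2⟩
      ⟨hxy1, Ne.symm hx2a, Ne.symm hy2a, Ne.symm hx2b, Ne.symm hy2b, hxy2⟩ ⟨N1, N2⟩ ?_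
    intro x hx y hy hxy Nxy
    by_contra hcon
    push Not at hcon
    exact hout ⟨x, hx, y, hy, hxy, Nxy, not_or.mpr ⟨hcon.1.1, not_or.mpr ⟨hcon.1.2.1,
      not_or.mpr ⟨hcon.1.2.2.1, hcon.1.2.2.2⟩⟩⟩, not_or.mpr ⟨hcon.2.1, not_or.mpr ⟨hcon.2.2.1,
      not_or.mpr ⟨hcon.2.2.2.1, hcon.2.2.2.2⟩⟩⟩⟩

/-- Three merges give a colouring with three colours fewer than points. -/
theorem colouring_of_merge3 [DecidableEq E] (Y : Finset E) (N : E → E → Prop)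
    (hN : ∀ a b, N a b → N b a) (m : ℕ) (hm : 0 < m) (hcard : Y.card ≤ m + 3)
    (h : Merge3 Y N) :
    ∃ c : E → Fin m, ∀ y₁ ∈ Y, ∀ y₂ ∈ Y, y₁ ≠ y₂ → c y₁ = c y₂ → N y₁ y₂ := by
  obtain ⟨p1, p2, p3, q1, q2, q3, hp1, hp2, hp3, hq1, hq2, hq3, h12, h13, h23, a1, a2, a3,
    b1, b2, b3, c1, c2, c3, N1, N2, N3, i12, i13, i23⟩ := h
  let g : E → E := fun t => if t = p1 then q1 else if t = p2 then q2 else if t = p3 then q3 else t
  have hg : ∀ t, g t = if t = p1 then q1 else if t = p2 then q2 else if t = p3 then q3 else t :=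
    fun t => rfl
  refine FewPoints.colouring_of_map Y N m hm g ?_ ?_
  · have hsub : Y.image g ⊆ ((Y.erase p1).erase p2).erase p3 := by
      intro z hz
      obtain ⟨t, ht, rfl⟩ := Finset.mem_image.mp hz
      rw [hg]
      grind
    have hc := Finset.card_le_card hsub
    have e3 : p3 ∈ (Y.erase p1).erase p2 := by grind
    have e2 : p2 ∈ Y.erase p1 := by grind
    rw [Finset.card_erase_of_mem e3, Finset.card_erase_of_mem e2,
      Finset.card_erase_of_mem hp1] at hc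
    omega
  · intro y₁ _ y₂ _ hne hgy
    rw [hg, hg] at hgy
    have s1 := hN p1 q1 N1
    have s2 := hN p2 q2 N2
    have s3 := hN p3 q3 N3
    grind

end Combinatorics

/-- From a proper colouring to pieces of smaller diameter. -/
theorem diam_of_colouring {F : Type} [PseudoMetricSpace F] [DecidableEq F] {m : ℕ} (Y : Finset F)
    (hpos : 0 < Metric.diam (Y : Set F)) (c : F → Fin m)
    (hc : ∀ y₁ ∈ Y, ∀ y₂ ∈ Y, y₁ ≠ y₂ → c y₁ = c y₂ → dist y₁ y₂ < Metric.diam (Y : Set F))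
    (i : Fin m) : Metric.diam {y | y ∈ Y ∧ c y = i} < Metric.diam (Y : Set F) := by
  have hP : {y | y ∈ Y ∧ c y = i} = ((Y.filter (fun y => c y = i) : Finset F) : Set F) := by
    ext y
    simp
  rw [hP]
  rcases (Y.filter (fun y => c y = i)).eq_empty_or_nonempty with he | hne
  · rw [he]
    simpa using hpos
  · obtain ⟨⟨x0, y0⟩, hmem, hmax⟩ := Finset.exists_max_image
      ((Y.filter (fun y => c y = i)) ×ˢ (Y.filter (fun y => c y = i)))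
      (fun p => dist p.1 p.2) (hne.product hne)
    rw [Finset.mem_product, Finset.mem_filter, Finset.mem_filter] at hmem
    have hM : dist x0 y0 < Metric.diam (Y : Set F) := by
      by_cases hxy : x0 = y0
      · rw [hxy, dist_self]
        exact hpos
      · exact hc x0 hmem.1.1 y0 hmem.2.1 hxy (hmem.1.2.trans hmem.2.2.symm)
    refine lt_of_le_of_lt (Metric.diam_le_of_forall_dist_le dist_nonneg ?_) hM
    intro x hx y hy
    exact hmax (x, y) (Finset.mem_product.mpr ⟨hx, hy⟩)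

/-- **Borsuk's conjecture for finite sets with at most `d + 4` points**: every set of at most
`d + 4` points of `ℝ^d` of positive diameter is a union of `d + 1` subsets of strictly smaller
diameter. -/
theorem result (d : ℕ) (Y : Finset (EuclideanSpace ℝ (Fin d))) (hY : Y.card ≤ d + 4)
    (hpos : 0 < Metric.diam (Y : Set (EuclideanSpace ℝ (Fin d)))) :
    ∃ c : EuclideanSpace ℝ (Fin d) → Fin (d + 1),
      ∀ i, Metric.diam {y | y ∈ Y ∧ c y = i}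
        < Metric.diam (Y : Set (EuclideanSpace ℝ (Fin d))) := by
  classical
  rcases Nat.lt_or_ge Y.card (d + 4) with hlt | hge
  · exact FewPoints.result d Y (by omega) hpos
  have hcard : Y.card = d + 4 := le_antisymm hY hge
  set D : ℝ := Metric.diam (Y : Set (EuclideanSpace ℝ (Fin d))) with hD
  have hle : ∀ x ∈ Y, ∀ y ∈ Y, dist x y ≤ D :=
    fun x hx y hy => Metric.dist_le_diam_of_mem Y.finite_toSet.isBounded hx hy
  have hQ : ∀ S : Finset (EuclideanSpace ℝ (Fin d)), S ⊆ Y → d + 2 ≤ S.card →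
      ∃ x ∈ S, ∃ y ∈ S, x ≠ y ∧ dist x y < D := by
    intro S hS hScard
    by_contra hcon
    push Not at hcon
    have := FewPoints.card_le_of_equidistant S _ hpos (fun x hx y hy hxy =>
      le_antisymm (hle x (hS hx) y (hS hy)) (hcon x hx y hy hxy))
    rw [finrank_euclideanSpace_fin] at this
    omega
  have hN : ∀ a b : EuclideanSpace ℝ (Fin d), dist a b < D → dist b a < D :=
    fun a b h => by rwa [dist_comm] at h
  have hF : ∀ a ∈ Y, ∀ b ∈ Y, ∃ x ∈ Y, ∃ y ∈ Y,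
      x ≠ y ∧ x ≠ a ∧ x ≠ b ∧ y ≠ a ∧ y ≠ b ∧ dist x y < D := by
    intro a ha b _
    have h1 : (Y.erase a).card = d + 3 := by rw [Finset.card_erase_of_mem ha]; omega
    have h2 : d + 2 ≤ ((Y.erase a).erase b).card := by
      have := Finset.pred_card_le_card_erase (s := Y.erase a) (a := b)
      omega
    obtain ⟨x, hx, y, hy, hxy, hd⟩ := hQ ((Y.erase a).erase b)
      ((Finset.erase_subset _ _).trans (Finset.erase_subset _ _)) h2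
    have hx' := Finset.mem_erase.mp hx
    have hx'' := Finset.mem_erase.mp hx'.2
    have hy' := Finset.mem_erase.mp hy
    have hy'' := Finset.mem_erase.mp hy'.2
    exact ⟨x, hx''.2, y, hy''.2, hxy, hx''.1, hx'.1, hy''.1, hy'.1, hd⟩
  have hYne : Y.Nonempty := Finset.card_pos.mp (by omega)
  rcases merge3_or_badC5 Y (fun x y => dist x y < D) hN hYne hF with hm | hbad
  · obtain ⟨c, hc⟩ := colouring_of_merge3 Y (fun x y => dist x y < D) hN (d + 1)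
      (Nat.succ_pos d) (by omega) hm
    exact ⟨c, fun i => diam_of_colouring Y hpos c hc i⟩
  · exfalso
    obtain ⟨w1, w2, w3, u1, u2, hw1, hw2, hw3, hu1, hu2, n12, n13, n23, nu, nu11, nu12, nu13,
      nu21, nu22, nu23, hN12, hN23, hrest⟩ := hbad
    set P : Finset (EuclideanSpace ℝ (Fin d)) :=
      ((((Y.erase w1).erase w2).erase w3).erase u1).erase u2 with hPdef
    have hPmem : ∀ z, z ∈ P ↔ z ∈ Y ∧ z ≠ w1 ∧ z ≠ w2 ∧ z ≠ w3 ∧ z ≠ u1 ∧ z ≠ u2 := by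
      intro z
      rw [hPdef]
      simp only [Finset.mem_erase]
      tauto
    have hPcard : P.card + 5 = Y.card := by
      have e1 : w2 ∈ Y.erase w1 := Finset.mem_erase.mpr ⟨Ne.symm n12, hw2⟩
      have e2 : w3 ∈ (Y.erase w1).erase w2 :=
        Finset.mem_erase.mpr ⟨Ne.symm n23, Finset.mem_erase.mpr ⟨Ne.symm n13, hw3⟩⟩
      have e3 : u1 ∈ ((Y.erase w1).erase w2).erase w3 :=
        Finset.mem_erase.mpr ⟨nu13, Finset.mem_erase.mpr ⟨nu12, Finset.mem_erase.mpr ⟨nu11, hu1⟩⟩⟩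
      have e4 : u2 ∈ (((Y.erase w1).erase w2).erase w3).erase u1 :=
        Finset.mem_erase.mpr ⟨Ne.symm nu, Finset.mem_erase.mpr ⟨nu23,
          Finset.mem_erase.mpr ⟨nu22, Finset.mem_erase.mpr ⟨nu21, hu2⟩⟩⟩⟩
      have c0 := Finset.card_erase_add_one hw1
      have c1 := Finset.card_erase_add_one e1
      have c2 := Finset.card_erase_add_one e2
      have c3 := Finset.card_erase_add_one e3
      have c4 := Finset.card_erase_add_one e4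
      rw [hPdef]
      omega
    have hfar : ∀ x ∈ Y, ∀ y ∈ Y, ¬ dist x y < D → dist x y = D :=
      fun x hx y hy h => le_antisymm (hle x hx y hy) (not_lt.mp h)
    have key : ∀ z ∈ P, ∀ y ∈ Y, y ≠ z → dist z y = D := by
      intro z hz y hy hyz
      obtain ⟨hzY, z1, z2, z3, z4, z5⟩ := (hPmem z).mp hz
      exact hfar z hzY y hy (hrest z hzY z1 z2 z3 z4 z5 y hy hyz)
    have hfinal := no_path P D hpos w1 w2 w3
      (by rw [finrank_euclideanSpace_fin]; omega)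
      (fun p hp q hq hpq => key p hp q ((hPmem q).mp hq).1 (Ne.symm hpq))
      (fun p hp => key p hp w1 hw1 (Ne.symm ((hPmem p).mp hp).2.1))
      (fun p hp => key p hp w2 hw2 (Ne.symm ((hPmem p).mp hp).2.2.1))
      (fun p hp => key p hp w3 hw3 (Ne.symm ((hPmem p).mp hp).2.2.2.1))
      (hfar w1 hw1 w2 hw2 hN12) (hfar w2 hw2 w3 hw3 hN23) (hle w1 hw1 w3 hw3)
    exact n13 hfinal

end Vale.Agent.Results.P052.DPlusFour
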